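import Vale.Agent.P207.N4.Geo.FinalH
import Vale.Agent.P207.N4.H709.DetR
import Vale.Agent.P207.N7.Geo.Asm

/-!
# P207: the logic for the condition on the rates and the entropy

`logicH_of` : from the logic over the rates with a clock to the logic for `HQ` (the clock is the
time).
-/

open Set Filter Topology Metric MeasureTheory
open scoped ContDiff ENNReal

noncomputable section

namespace Vale.Agent.P207.N4.Y

open Vale.Agent.P207.N3

/-- the clock of the constant function `1` is the time -/
theorem sg_one [Dim] {Γ X B : Type} [Group Γ] [MetricSpace X] [ProperSpace X] [MulAction Γ X]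
    [IsIsometricSMul Γ X] [TopologicalSpace B] [CompactSpace B] [T2Space B] [MulAction Γ B]
    [ContinuousConstSMul Γ B] (L : Leaf Γ X B) (t : ℝ) (x : X) :
    Clock.sg L (fun _ => 1) t x = t := by
  simp [Clock.sg]

/-- the dynamical rates from the bounds of `U` and the entropy -/
theorem exists_ratesH [Dim] {Γ X B V : Type} [Group Γ] [MetricSpace X] [ProperSpace X]
    [MulAction Γ X] [IsIsometricSMul Γ X] [TopologicalSpace B] [CompactSpace B] [T2Space B]
    [MulAction Γ B] [ContinuousConstSMul Γ B] [MeasurableSpace B] [BorelSpace B]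
    [NormedAddCommGroup V] [NormedSpace ℝ V] [FiniteDimensional ℝ V] {L : Leaf Γ X B}
    (S : Suite L V) {a b : ℝ} (ha : 0 < a) (hQ : HQ Dim.m a b S.A.h)
    (hlo : ∀ x v, a * ‖v‖ ^ 2 ≤ inner ℝ (S.M.U x v) v)
    (hhi : ∀ x v, inner ℝ (S.M.U x v) v ≤ b * ‖v‖ ^ 2) : Nonempty (Rates S.M) := by
  obtain ⟨a', b', sl, T, h1, h2, h3, h4, h5, h6⟩ := H709.det_rates_sl S.M S.A ha hlo hhi hQ
  exact ⟨{
    a := a'
    b := b'
    a_pos := h1
    a_le_b := h2
    pinch := h3
    c := fun _ => 1
    c_cont := continuous_const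
    c_smul := fun _ _ => rfl
    c_rot := fun _ _ => rfl
    c_flip := fun _ => rfl
    c₀ := 1
    c₁ := 1
    c₀_pos := one_pos
    c_lo := fun _ => le_rfl
    c_hi := fun _ => le_rfl
    T := T
    T_pos := h5
    sl := sl
    sl_pos := h4
    rate := fun t ht x v => by
      rw [sg_one]
      exact h6 t ht x v
    a₀ := a
    b₀ := b
    a₀_pos := ha
    lo := hlo
    hi := hhi }⟩

/-- **the logic for `HQ`** -/
theorem logicH_of [Dim] (h : LogicW) : LogicH (HQ Dim.m) := by
  intro Γ X B V _ _ _ _ _ _ _ _ _ _ _ _ _ _ _ L S C a b ha _ hQ hlo hhi hcal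
  obtain ⟨R⟩ := exists_ratesH S ha hQ hlo hhi
  exact h L S C R hcal

end Vale.Agent.P207.N4.Y
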