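import Vale.Agent.P207.N4.Geo.CoreP
import Vale.Agent.P207.N4.H391.RelK
import Vale.Agent.P207.N4.H709.ClkR
import Vale.Agent.P207.N7.Geo.Asm

/-!
# P207: the logic for a relative bound `ρ² < 4` of the Jacobi operator

`exists_ratesK` : the rates with a clock, from a relative bound of the Jacobi operator in each
frame. `logicP_of` : from the logic over the rates with a clock to the logic for such a bound.
-/

open Set Filter Topology Metric MeasureTheory
open scoped ContDiff ENNReal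

noncomputable section

namespace Vale.Agent.P207.N4.Y

open Vale.Agent.P207.N3

section Rat

variable [Dim] {Γ X B : Type} [Group Γ] [MetricSpace X] [ProperSpace X]
  [MulAction Γ X] [IsIsometricSMul Γ X] [TopologicalSpace B] [CompactSpace B] [T2Space B]
  [MulAction Γ B] [ContinuousConstSMul Γ B] {L : Leaf Γ X B}

/-- the rates with a clock, from relative pinching along the orbits -/
theorem exists_ratesM (M : Metr L) {a b ρ : ℝ} (ha : 0 < a)
    (hlo : ∀ x v, a * ‖v‖ ^ 2 ≤ inner ℝ (M.U x v) v)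
    (hhi : ∀ x v, inner ℝ (M.U x v) v ≤ b * ‖v‖ ^ 2) (hρ : 1 ≤ ρ) (hρ2 : ρ < 2)
    (hR : RelM M ρ) : Nonempty (Rates M) := by
  obtain ⟨a', b', sl, T, c₀, c₁, c, h1, h2, h3, h4, h5, h6, h7, h8, h9, h10, h11, h12, h13⟩ :=
    H709.clock_rates M ha hlo hhi hρ hρ2 hR
  exact ⟨{
    a := a'
    b := b'
    a_pos := h1
    a_le_b := h2
    pinch := h3
    c := c
    c_cont := h7
    c_smul := h8
    c_rot := h9
    c_flip := h10
    c₀ := c₀
    c₁ := c₁
    c₀_pos := h6
    c_lo := h11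
    c_hi := h12
    T := T
    T_pos := h5
    sl := sl
    sl_pos := h4
    rate := h13
    a₀ := a
    b₀ := b
    a₀_pos := ha
    lo := hlo
    hi := hhi }⟩

/-- the rates with a clock, from a relative bound of the Jacobi operator in each frame -/
theorem exists_ratesK (M : Metr L) (hKc : Continuous M.K) {a b ρ : ℝ} (ha : 0 < a) (hab : a ≤ b)
    (hlo : ∀ x v, a * ‖v‖ ^ 2 ≤ inner ℝ (M.U x v) v)
    (hhi : ∀ x v, inner ℝ (M.U x v) v ≤ b * ‖v‖ ^ 2)
    (hK : ∀ x v, a ^ 2 * ‖v‖ ^ 2 ≤ -inner ℝ (M.K x v) v ∧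
      -inner ℝ (M.K x v) v ≤ b ^ 2 * ‖v‖ ^ 2) (hρ : 1 ≤ ρ) (hρ2 : ρ < 2)
    (hR : RelK M (ρ ^ 2)) : Nonempty (Rates M) :=
  exists_ratesM M ha hlo hhi hρ hρ2 (H391.RelK.relM_of M hKc ha hab hlo hhi hK hρ hR)

end Rat

/-- **the logic for a relative bound `ρ² < 4`** -/
theorem logicP_of [Dim] (h : LogicW) : LogicP := by
  intro Γ X B V _ _ _ _ _ _ _ _ _ _ _ _ _ _ _ L S C a b ha hab hlo hhi hK hKc ρ hρ hρ2 hR hcal
  obtain ⟨R⟩ := exists_ratesK S.M hKc ha hab hlo hhi hK hρ hρ2 hR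
  exact h L S C R hcal

end Vale.Agent.P207.N4.Y
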