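import Vale.Agent.P207.N7.Geo.Asm
import Vale.Agent.P207.N7.H478.Main
import Vale.Agent.P207.N7.H391.Step8
import Vale.Agent.P207.N7.H547.AffP

/-!
# P207, theorem P: the logic, with a clock

The stable subspaces are smooth along the unstable leaves, and the leaves carry invariant flat
structures, as soon as the flow expands the unstable leaves by factors between `exp (a σ)` and
`exp (b σ)`, `b < 2 a`, for a clock `σ t x = ∫_0^t c (φ_s x) ds`.
-/

noncomputable section

namespace Vale.Agent.P207.N4.Y

open Vale.Agent.P207.N3

/-- **The logic for the rates in a clock, `b < 2 a`.** -/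
theorem logicW [Dim] : LogicW := logic_of H547.affP steps17 H391.step8

end Vale.Agent.P207.N4.Y
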